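import Crest.Agent.Lib.Row160.TreeWin0
import Crest.Agent.Lib.Row160.TreeWin2

/-!
Row 160, M2b: Ising windows on trees (statements are in `TreeWin0` and `TreeWin2`).
-/
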